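import Vale.Agent.P024.H644.K12
import Vale.Agent.P024.H409.Dens5

/-!
The density hypothesis for the primes which are `1` modulo `m`.
-/

namespace Vale.Agent.P024.H74

open scoped NumberField ENNReal Topology
open IsDedekindDomain NumberField Filter

/-- A Galois number field containing a given one and the `m`-th roots of unity. -/
theorem exists_galois (F : Type*) [Field F] [NumberField F] (m : ℕ) (hm : 0 < m) :
    ∃ (Z : Type) (_ : Field Z) (_ : NumberField Z) (_ : IsGalois ℚ Z) (_ : F →+* Z) (ζ : Z),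
      IsPrimitiveRoot ζ m := by
  classical
  have : NeZero m := ⟨hm.ne'⟩
  let K := CyclotomicField m F
  have hcyc : IsCyclotomicExtension {m} F K := CyclotomicField.isCyclotomicExtension m F
  have hfd : FiniteDimensional F K := IsCyclotomicExtension.finiteDimensional {m} F K
  have hnf : NumberField K := NumberField.of_module_finite F K
  have hζ := IsCyclotomicExtension.zeta_spec m F K
  let E := AlgebraicClosure ℚ
  let Z := IntermediateField.normalClosure ℚ K E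
  have hfin : FiniteDimensional ℚ Z := inferInstance
  have hN : NumberField Z := @NumberField.mk Z _ _ hfin
  have halg : Algebra.IsAlgebraic ℚ E := AlgebraicClosure.isAlgebraic ℚ
  have hnE : Normal ℚ E := ⟨fun x => by
    exact IsAlgClosed.splits _⟩
  have hnor : Normal ℚ Z := normalClosure.normal ℚ K E
  have hgal : IsGalois ℚ Z := ⟨⟩
  let g : K →ₐ[ℚ] E := IsAlgClosed.lift
  let g' : K →+* Z := (g : K →+* E).codRestrict Z (fun x => g.fieldRange_le_normalClosure ⟨x, rfl⟩)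
  refine ⟨Z, inferInstance, hN, hgal, g'.comp (algebraMap F K),
    g' (IsCyclotomicExtension.zeta m F K), ?_⟩
  exact hζ.map_of_injective g'.injective

/-- The density hypothesis for the primes congruent to `1` modulo `m` outside a finite set. -/
theorem densA_one (Z : Type*) [Field Z] [NumberField Z] {m : ℕ} (hm : 0 < m) {ζ : Z}
    (hζ : IsPrimitiveRoot ζ m) {B : Set ℕ} (hB : B.Finite) :
    TR.DensA Z {p | p % m = 1 % m ∧ p ∉ B} ∅ (1 / (2 * Module.finrank ℚ Z)) := by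
  classical
  intro l hl _ S hS
  have hnz : NeZero l := ⟨hl.ne_zero⟩
  have : NeZero ((l : ℕ) : AlgebraicClosure Z) := ⟨Nat.cast_ne_zero.2 hl.ne_zero⟩
  obtain ⟨ξ, hξ⟩ := HasEnoughRootsOfUnity.exists_primitiveRoot (AlgebraicClosure Z) l
  have hζint : IsIntegral ℤ ζ := hζ.isIntegral hm
  let ζ' : 𝓞 Z := ⟨ζ, hζint⟩
  have hζ' : IsPrimitiveRoot ζ' m := by
    refine IsPrimitiveRoot.of_map_of_injective (f := algebraMap (𝓞 Z) Z) ?_
      RingOfIntegers.coe_injective
    exact hζ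
  have h0 : Tendsto (fun s : ℝ => (∑' p : {p : ℕ | p.Prime ∧ p ∈ (∅ : Set ℕ)},
      ((p : ℕ) : ℝ) ^ (-s)) / Real.log (1 / (s - 1))) (𝓝[>] 1) (𝓝 0) := by
    have he : IsEmpty {p : ℕ | p.Prime ∧ p ∈ (∅ : Set ℕ)} := ⟨fun p => p.2.2⟩
    have h1 : (fun s : ℝ => (∑' p : {p : ℕ | p.Prime ∧ p ∈ (∅ : Set ℕ)},
        ((p : ℕ) : ℝ) ^ (-s)) / Real.log (1 / (s - 1))) = fun _ => 0 := by
      funext s
      rw [tsum_empty, zero_div]
    rw [h1]
    exact tendsto_const_nhds
  have hS' : (S ∪ {w : HeightOneSpectrum (𝓞 Z) | (m : 𝓞 Z) ∈ w.asIdeal} ∪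
      {v : HeightOneSpectrum (𝓞 Z) | ∃ p ∈ B, p.Prime ∧ (p : 𝓞 Z) ∈ v.asIdeal}).Finite :=
    (hS.union (H409.finite_dvd hm.ne')).union (finite_above_set Z hB)
  refine (eventually_dens_one Z hl hξ ∅ h0 _ hS').mono fun s hs => hs.trans ?_
  apply ENNReal.tsum_mono_subtype
    (fun w : HeightOneSpectrum (𝓞 Z) => ENNReal.ofReal (nm Z w s))
  rintro w ⟨hw1, -, hw2, hw3⟩
  have hw4 : w ∉ S := fun h => hw3 (Or.inl (Or.inl h))
  have hw5 : (m : 𝓞 Z) ∉ w.asIdeal := fun h => hw3 (Or.inl (Or.inr h))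
  have hw6 : Ideal.absNorm w.asIdeal ∉ B := fun h =>
    hw3 (Or.inr ⟨_, h, hw1, Ideal.absNorm_mem _⟩)
  exact ⟨hw1, ⟨H409.modEq_one_of_prim hm hζ' w hw5, hw6⟩, hw2, hw4⟩

/-- **[DENSM]** -/
theorem densm (F : Type*) [Field F] [NumberField F] (m : ℕ) (hm : 0 < m) (B : Set ℕ)
    (hB : B.Finite) :
    ∃ (Z : Type) (_ : Field Z) (_ : NumberField Z) (_ : IsGalois ℚ Z) (_ : F →+* Z) (δ : ℝ),
      0 < δ ∧ TR.DensA Z {p | p % m = 1 % m ∧ p ∉ B} ∅ δ := by
  obtain ⟨Z, i1, i2, i3, f, ζ, hζ⟩ := exists_galois F m hm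
  refine ⟨Z, i1, i2, i3, f, 1 / (2 * Module.finrank ℚ Z), ?_, densA_one Z hm hζ hB⟩
  have : (0 : ℝ) < Module.finrank ℚ Z := by
    rw [Nat.cast_pos]
    exact Module.finrank_pos
  positivity

end Vale.Agent.P024.H74
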