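import Mathlib

/-!
Divisibility of an interpolation determinant whose rows lie, modulo a high power of `p`, in a
group generated by few elements.
-/

namespace Vale.Agent.P024.H74

open Finset

/-- There are at most `E ^ r` vectors of natural numbers of length `r` with sum less than `E`. -/
theorem card_sum_lt (r N E : ℕ) :
    (univ.filter fun κ : Fin r → Fin N => ∑ i, (κ i : ℕ) < E).card ≤ E ^ r := by
  classical
  have h : (univ.filter fun κ : Fin r → Fin N => ∑ i, (κ i : ℕ) < E).card ≤
      (Fintype.piFinset fun _ : Fin r => range E).card := by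
    apply card_le_card_of_injOn (fun κ i => (κ i : ℕ))
    · intro κ hκ
      rw [mem_coe, mem_filter] at hκ
      rw [mem_coe, Fintype.mem_piFinset]
      intro i
      rw [mem_range]
      exact lt_of_le_of_lt
        (single_le_sum (f := fun i => (κ i : ℕ)) (fun _ _ => Nat.zero_le _) (mem_univ i)) hκ.2
    · intro κ _ κ' _ h
      ext i
      exact congrFun h i
  rw [Fintype.card_piFinset] at h
  simpa using h

/-- The sum of the sums of `L` different vectors. -/
theorem le_sum_of_injective (r L E N : ℕ) (hE : 2 * E ^ r ≤ L) (c : Fin L → (Fin r → Fin N))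
    (hc : Function.Injective c) : E * (L / 2) ≤ ∑ a, ∑ i, (c a i : ℕ) := by
  classical
  have h1 : (univ.filter fun a : Fin L => ∑ i, (c a i : ℕ) < E).card ≤ E ^ r := by
    refine le_trans ?_ (card_sum_lt r N E)
    apply card_le_card_of_injOn c
    · intro a ha
      rw [mem_coe, mem_filter] at ha ⊢
      exact ⟨mem_univ _, ha.2⟩
    · exact hc.injOn
  have h2 : (univ.filter fun a : Fin L => ¬ (∑ i, (c a i : ℕ) < E)).card +
      (univ.filter fun a : Fin L => ∑ i, (c a i : ℕ) < E).card = L := by
    rw [add_comm, card_filter_add_card_filter_not]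
    simp
  have h3 : L / 2 ≤ (univ.filter fun a : Fin L => ¬ (∑ i, (c a i : ℕ) < E)).card := by omega
  calc E * (L / 2) ≤ E * (univ.filter fun a : Fin L => ¬ (∑ i, (c a i : ℕ) < E)).card :=
        Nat.mul_le_mul_left _ h3
    _ = ∑ _a ∈ univ.filter fun a : Fin L => ¬ (∑ i, (c a i : ℕ) < E), E := by
        rw [sum_const, smul_eq_mul, mul_comm]
    _ ≤ ∑ a ∈ univ.filter fun a : Fin L => ¬ (∑ i, (c a i : ℕ) < E), ∑ i, (c a i : ℕ) := by
        apply sum_le_sum
        intro a ha
        rw [mem_filter] at ha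
        omega
    _ ≤ ∑ a, ∑ i, (c a i : ℕ) :=
        sum_le_sum_of_subset_of_nonneg (filter_subset _ _) (fun _ _ _ => Nat.zero_le _)

/-- A determinant with rows divisible by powers of `p`. -/
theorem dvd_det_of_rows {O : Type*} [CommRing O] (p : O) (L : ℕ) (e : Fin L → ℕ)
    (M : Matrix (Fin L) (Fin L) O) (h : ∀ a b, p ^ e a ∣ M a b) : p ^ (∑ a, e a) ∣ M.det := by
  choose M' hM' using h
  have : M = Matrix.of fun a b => (p ^ e a) * (Matrix.of M') a b := by
    ext a b; simp [hM']
  rw [this, Matrix.det_mul_column, ← prod_pow_eq_pow_sum]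
  exact dvd_mul_right _ _

/-- The expansion of the determinant of a product. -/
theorem det_sum_rows {O : Type*} [CommRing O] (L : ℕ) {ι : Type*} [Fintype ι] [DecidableEq ι]
    (A : Fin L → ι → O) (B : ι → Fin L → O) :
    (Matrix.of fun a b => ∑ κ, A a κ * B κ b).det =
      ∑ c : Fin L → ι, (∏ a, A a (c a)) * (Matrix.of fun a b => B (c a) b).det := by
  classical
  have h1 : (Matrix.of fun a b => ∑ κ, A a κ * B κ b) =
      Matrix.of (fun a => ∑ κ, A a κ • B κ) := by
    ext a b
    simp [Finset.sum_apply]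
  rw [h1]
  have h2 := (Matrix.detRowAlternating (R := O) (n := Fin L)).toMultilinearMap.map_sum
    (fun a (κ : ι) => A a κ • B κ)
  have h3 : (Matrix.of (fun a => ∑ κ, A a κ • B κ)).det =
      ∑ c : Fin L → ι, (Matrix.of fun a => A a (c a) • B (c a)).det := h2
  rw [h3]
  apply sum_congr rfl
  intro c _
  have h4 : (Matrix.of fun a => A a (c a) • B (c a)) =
      Matrix.of fun a b => A a (c a) * (Matrix.of fun a b => B (c a) b) a b := by
    ext a b; simp
  rw [h4, Matrix.det_mul_column]

theorem det_dvd {O : Type*} [CommRing O] (p : O) (r L E m N : ℕ) (hE : 2 * E ^ r ≤ L)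
    (M : Matrix (Fin L) (Fin L) O) (A : Fin L → (Fin r → Fin N) → O)
    (B : (Fin r → Fin N) → Fin L → O)
    (hM : ∀ a b, p ^ m ∣ M a b - ∑ κ, A a κ * B κ b)
    (hB : ∀ κ b, p ^ (∑ i, (κ i : ℕ)) ∣ B κ b) (hm : E * (L / 2) ≤ m) :
    p ^ (E * (L / 2)) ∣ M.det := by
  classical
  have h1 : p ^ m ∣ M.det - (Matrix.of fun a b => ∑ κ, A a κ * B κ b).det := by
    rw [← Ideal.mem_span_singleton, ← Ideal.Quotient.eq, RingHom.map_det, RingHom.map_det]
    congr 1
    ext a b
    simp only [RingHom.mapMatrix_apply, Matrix.map_apply, Matrix.of_apply]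
    rw [Ideal.Quotient.eq, Ideal.mem_span_singleton]
    exact hM a b
  have h2 : p ^ (E * (L / 2)) ∣ (Matrix.of fun a b => ∑ κ, A a κ * B κ b).det := by
    rw [det_sum_rows]
    apply Finset.dvd_sum
    intro c _
    apply Dvd.dvd.mul_left
    by_cases hc : Function.Injective c
    · exact (pow_dvd_pow p (le_sum_of_injective r L E N hE c hc)).trans
        (dvd_det_of_rows p L (fun a => ∑ i, (c a i : ℕ)) _ (fun a b => hB _ _))
    · unfold Function.Injective at hc
      push Not at hc
      obtain ⟨a, a', haa, hne⟩ := hc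
      rw [Matrix.det_zero_of_row_eq hne]
      · exact dvd_zero _
      · ext b; simp [haa]
  have h3 := (pow_dvd_pow p hm).trans h1
  exact (dvd_sub_left h2).1 (by
    have := h3
    exact this) 

end Vale.Agent.P024.H74
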