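import Mathlib
import Vale.Agent.P024.H74.DetDvd
import Vale.Agent.P024.W.Minor
import Vale.Agent.P024.M3.H832.Size

/-!
Interpolation determinants: a finitely generated group of algebraic numbers whose points are not
contained in a small algebraic set is not contained, `p`-adically, in a group of too small a
dimension.
-/

namespace Vale.Agent.P024.H74

open Finset NumberField

/-- The binomial expansion of a product of powers. -/
theorem prod_pow_expand {O : Type*} [CommRing O] (r N : ℕ) (w : Fin r → O) (z : Fin r → ℕ)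
    (hz : ∀ i, z i < N) :
    ∏ i, w i ^ z i = ∑ κ : Fin r → Fin N, (∏ i, ((z i).choose (κ i) : O)) *
      ∏ i, (w i - 1) ^ (κ i : ℕ) := by
  classical
  have h1 : ∀ i, w i ^ z i = ∑ k : Fin N, ((z i).choose k : O) * (w i - 1) ^ (k : ℕ) := by
    intro i
    conv_lhs => rw [show w i = (w i - 1) + 1 by ring, add_pow]
    rw [Fin.sum_univ_eq_sum_range (fun k => ((z i).choose k : O) * (w i - 1) ^ k) N]
    rw [← Finset.sum_subset (Finset.range_subset_range.2 (show z i + 1 ≤ N from hz i))]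
    · apply sum_congr rfl
      intro k _
      rw [one_pow, mul_one, mul_comm]
    · intro k _ hk
      rw [mem_range, not_lt] at hk
      rw [Nat.choose_eq_zero_of_lt (by omega)]
      simp
  simp only [h1]
  rw [Finset.prod_univ_sum]
  simp only [Fintype.piFinset_univ, Finset.prod_mul_distrib]

/-- Congruent bases give congruent products. -/
theorem dvd_prod_sub {O : Type*} [CommRing O] (P : O) {l d : ℕ} (y y' : Fin l → Fin d → O)
    (h : ∀ j k, P ∣ y j k - y' j k) (s : Fin l → ℕ) (t : Fin d → ℕ) :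
    P ∣ ∏ k, (∏ j, y j k ^ s j) ^ t k - ∏ k, (∏ j, y' j k ^ s j) ^ t k := by
  rw [← Ideal.mem_span_singleton, ← Ideal.Quotient.eq]
  have : ∀ j k, Ideal.Quotient.mk (Ideal.span {P}) (y j k) =
      Ideal.Quotient.mk (Ideal.span {P}) (y' j k) := by
    intro j k
    rw [Ideal.Quotient.eq, Ideal.mem_span_singleton]
    exact h j k
  simp only [map_prod, map_pow, this]

theorem prod_identity {O : Type*} [CommRing O] {l d r : ℕ} (u : Fin r → Fin d → O)
    (z : Fin l → Fin r → ℕ) (s : Fin l → ℕ) (t : Fin d → ℕ) :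
    ∏ k, (∏ j, (∏ i, u i k ^ z j i) ^ s j) ^ t k =
      ∏ i, (∏ k, u i k ^ t k) ^ (∑ j, z j i * s j) := by
  have h1 : ∀ k, (∏ j, (∏ i, u i k ^ z j i) ^ s j) ^ t k =
      ∏ i, (u i k ^ t k) ^ (∑ j, z j i * s j) := by
    intro k
    have h2 : (∏ j, (∏ i, u i k ^ z j i) ^ s j) = ∏ i, u i k ^ (∑ j, z j i * s j) := by
      have : ∀ j, (∏ i, u i k ^ z j i) ^ s j = ∏ i, u i k ^ (z j i * s j) := by
        intro j
        rw [← prod_pow]
        simp only [pow_mul]
      simp only [this]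
      rw [prod_comm]
      apply prod_congr rfl
      intro i _
      rw [prod_pow_eq_pow_sum]
    rw [h2, ← prod_pow]
    apply prod_congr rfl
    intro i _
    rw [← pow_mul, ← pow_mul, mul_comm]
  simp only [h1]
  rw [prod_comm]
  apply prod_congr rfl
  intro i _
  rw [prod_pow]

theorem dvd_prod_pow_sub_one {O : Type*} [CommRing O] (p : O) {d : ℕ} (u : Fin d → O)
    (h : ∀ k, p ∣ u k - 1) (t : Fin d → ℕ) : p ∣ ∏ k, u k ^ t k - 1 := by
  rw [← Ideal.mem_span_singleton, ← Ideal.Quotient.eq]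
  have : ∀ k, Ideal.Quotient.mk (Ideal.span {p}) (u k) = 1 := by
    intro k
    rw [← map_one (Ideal.Quotient.mk (Ideal.span {p})), Ideal.Quotient.eq,
      Ideal.mem_span_singleton]
    exact h k
  simp [map_prod, map_pow, this]

/-- The numerical contradiction. -/
theorem numeric (d l c h S : ℕ) (hd : 1 ≤ d) (hS : 4 * d ^ 2 + 2 * (h * d * l * c) < S)
    (hS2 : Even S) :
    (S ^ (2 * d * d)).factorial * ((2 ^ h) ^ (d * S ^ (2 * d) * (l * (c * S)))) ^ (S ^ (2 * d * d)) <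
      2 ^ (S ^ (2 * d + 2) * (S ^ (2 * d * d) / 2)) := by
  set L := S ^ (2 * d * d) with hL
  set W := h * (d * S ^ (2 * d) * (l * (c * S))) with hW
  have hS1 : 1 ≤ S := by omega
  obtain ⟨M, hM⟩ : Even L := by
    rw [hL]; exact hS2.pow_of_ne_zero (by positivity)
  have hM2 : L / 2 = M := by omega
  have hL0 : 0 < L := by positivity
  have hM0 : 0 < M := by omega
  rw [hM2, ← pow_mul 2 h]
  have h1 : L.factorial ≤ L ^ L := Nat.factorial_le_pow L
  have hLle : L ≤ 2 ^ (S * (2 * d * d)) := by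
    rw [hL, pow_mul 2 S]
    exact Nat.pow_le_pow_left Nat.lt_two_pow_self.le _
  have hexp : 2 * (S * (2 * d * d)) + 2 * W < S ^ (2 * d + 2) := by
    have h2 : W = h * d * l * c * S ^ (2 * d + 1) := by
      rw [hW, pow_succ]; ring
    have h3 : S ≤ S ^ (2 * d + 1) := by
      calc S = S ^ 1 := (pow_one S).symm
        _ ≤ S ^ (2 * d + 1) := Nat.pow_le_pow_right hS1 (by omega)
    calc 2 * (S * (2 * d * d)) + 2 * W = 4 * d ^ 2 * S + 2 * W := by ring
      _ ≤ 4 * d ^ 2 * S ^ (2 * d + 1) + 2 * W := by gcongr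
      _ = (4 * d ^ 2 + 2 * (h * d * l * c)) * S ^ (2 * d + 1) := by rw [h2]; ring
      _ < S * S ^ (2 * d + 1) := Nat.mul_lt_mul_of_pos_right hS (by positivity)
      _ = S ^ (2 * d + 2) := by ring
  calc L.factorial * (2 ^ W) ^ L ≤ L ^ L * (2 ^ W) ^ L := Nat.mul_le_mul_right _ h1
    _ = (L ^ 2 * 2 ^ (2 * W)) ^ M := by
        rw [← mul_pow, hM, ← two_mul, pow_mul, mul_pow, ← pow_mul 2 W 2, mul_comm W 2]
    _ ≤ ((2 ^ (S * (2 * d * d))) ^ 2 * 2 ^ (2 * W)) ^ M := by gcongr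
    _ = (2 ^ (2 * (S * (2 * d * d)) + 2 * W)) ^ M := by
        rw [← pow_mul 2 _ 2, mul_comm (S * (2 * d * d)) 2, ← pow_add]
    _ < (2 ^ (S ^ (2 * d + 2))) ^ M :=
        Nat.pow_lt_pow_left (Nat.pow_lt_pow_right (by norm_num) hexp) hM0.ne'
    _ = 2 ^ (S ^ (2 * d + 2) * M) := by rw [← pow_mul]

/-- **The core of block W.**  If the points `y_1, …, y_l` of the `d`-dimensional torus satisfy a
zero estimate, then they are not contained, modulo all powers of `p`, in a group generated by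
`d - 1` points congruent to `1`. -/
theorem core {N : Type*} [Field N] [NumberField N] {d r l : ℕ} (hr : r + 1 = d)
    (y : Fin l → Fin d → 𝓞 N) (hy0 : ∀ j k, y j k ≠ 0)
    (hind : W.Indep (fun j k => (y j k : N)))
    (hcond : ∃ S₀, ∀ S, S₀ ≤ S → W.Cond l d (S ^ (2 * d)) S)
    (p : ℕ) (hp : 2 ≤ p)
    (happ : ∀ A : ℕ, ∃ u : Fin r → Fin d → 𝓞 N, (∀ i k, (p : 𝓞 N) ∣ u i k - 1) ∧
      ∃ z : Fin l → Fin r → ℕ, ∀ j k, (p : 𝓞 N) ^ A ∣ y j k - ∏ i, u i k ^ z j i) : False := by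
  classical
  obtain ⟨S₀, hS₀⟩ := hcond
  -- a bound for the sizes
  obtain ⟨h, hh⟩ : ∃ h : ℕ, ∀ (φ : N →+* ℂ) (j : Fin l) (k : Fin d),
      ‖φ (y j k : N)‖ ≤ (2 : ℝ) ^ h := by
    have h1 : ∀ x : (N →+* ℂ) × Fin l × Fin d, ∃ h : ℕ, ‖x.1 (y x.2.1 x.2.2 : N)‖ ≤ (2 : ℝ) ^ h := by
      intro x
      obtain ⟨h, hh⟩ := pow_unbounded_of_one_lt ‖x.1 (y x.2.1 x.2.2 : N)‖ (one_lt_two (α := ℝ))
      exact ⟨h, hh.le⟩
    choose g hg using h1
    refine ⟨∑ x, g x, fun φ j k => (hg (φ, j, k)).trans ?_⟩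
    exact pow_le_pow_right₀ one_le_two (single_le_sum (fun _ _ => Nat.zero_le _) (mem_univ _))
  -- the parameters
  obtain ⟨S, hSe, hS1, hS2⟩ : ∃ S : ℕ, Even S ∧ S₀ ≤ S ∧
      4 * d ^ 2 + 2 * (h * d * l * 1) < S :=
    ⟨2 * (S₀ + 4 * d ^ 2 + 2 * (h * d * l * 1) + 1), even_two_mul _, by omega, by omega⟩
  have hd : 1 ≤ d := by omega
  have hSpos : 0 < S := by omega
  have hS2' : 2 ≤ S := by
    obtain ⟨m, hm⟩ := hSe; omega
  obtain ⟨T, hT⟩ : ∃ T, T = S ^ (2 * d) := ⟨_, rfl⟩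
  have hC := hS₀ S hS1
  rw [← hT] at hC
  have hmin := W.exists_ent_minor' (ξ := fun j k => (y j k : N)) (fun j k => by
    simpa using hy0 j k) hind hC
  obtain ⟨L, hL⟩ : ∃ L, L = T ^ d := ⟨_, rfl⟩
  rw [← hL] at hmin
  obtain ⟨t, s, hdet⟩ := hmin
  have hL' : L = S ^ (2 * d * d) := by rw [hL, hT, ← pow_mul]
  obtain ⟨E, hE⟩ : ∃ E, E = S ^ (2 * d + 2) := ⟨_, rfl⟩
  have hEL : 2 * E ^ r ≤ L := by
    have h1 : E ^ r = S ^ ((2 * d + 2) * r) := by rw [hE, ← pow_mul]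
    have h2 : (2 * d + 2) * r + 2 = 2 * d * d := by rw [← hr]; ring
    rw [h1, hL', ← h2, pow_add]
    have h3 : 2 ≤ S ^ 2 := by nlinarith
    rw [mul_comm]
    exact Nat.mul_le_mul_left _ h3
  -- the matrix
  let M : Matrix (Fin L) (Fin L) (𝓞 N) :=
    Matrix.of fun a b => ∏ k, (∏ j, y j k ^ (s a j : ℕ)) ^ (t b k : ℕ)
  have hM0 : M.det ≠ 0 := by
    intro h0
    apply hdet
    have h1 : (Matrix.of fun a b => W.ent (fun j k => (y j k : N)) (t a) (s b)) =
        (((algebraMap (𝓞 N) N).mapMatrix M).transpose) := by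
      ext a b
      simp only [Matrix.of_apply, Matrix.transpose_apply, RingHom.mapMatrix_apply,
        Matrix.map_apply, M]
      rw [W.ent_eq]
      simp only [W.pt, map_prod, map_pow]
    rw [h1, Matrix.det_transpose, ← RingHom.map_det, h0, map_zero]
  -- the approximation
  obtain ⟨u, hu1, z, hz⟩ := happ (E * (L / 2))
  let Z : Fin L → Fin r → ℕ := fun a i => ∑ j, z j i * (s a j : ℕ)
  let w : Fin r → Fin L → 𝓞 N := fun i b => ∏ k, u i k ^ (t b k : ℕ)
  obtain ⟨B, hB⟩ : ∃ B : ℕ, ∀ a i, Z a i < B := by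
    refine ⟨∑ a, ∑ i, Z a i + 1, fun a i => ?_⟩
    have h1 : Z a i ≤ ∑ i, Z a i := single_le_sum (fun _ _ => Nat.zero_le _) (mem_univ _)
    have h2 : ∑ i, Z a i ≤ ∑ a, ∑ i, Z a i :=
      single_le_sum (f := fun a => ∑ i, Z a i) (fun _ _ => Nat.zero_le _) (mem_univ _)
    omega
  have hdvd : (p : 𝓞 N) ^ (E * (L / 2)) ∣ M.det := by
    refine det_dvd (p : 𝓞 N) r L E (E * (L / 2)) B hEL M
      (fun a κ => ∏ i, ((Z a i).choose (κ i) : 𝓞 N))
      (fun κ b => ∏ i, (w i b - 1) ^ (κ i : ℕ)) ?_ ?_ le_rfl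
    · intro a b
      rw [← prod_pow_expand r B (fun i => w i b) (Z a) (hB a)]
      have h1 := dvd_prod_sub ((p : 𝓞 N) ^ (E * (L / 2))) y (fun j k => ∏ i, u i k ^ z j i) hz
        (fun j => (s a j : ℕ)) (fun k => (t b k : ℕ))
      rw [prod_identity] at h1
      exact h1
    · intro κ b
      rw [← prod_pow_eq_pow_sum]
      apply prod_dvd_prod_of_dvd
      intro i _
      exact pow_dvd_pow_of_dvd (dvd_prod_pow_sub_one (p : 𝓞 N) (u i) (hu1 i) _) _
  -- the size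
  refine hM0 (M3.H832.det_eq_zero M p (E * (L / 2))
    (((2 : ℝ) ^ h) ^ (d * T * (l * (1 * S)))) hdvd ?_ ?_)
  · intro φ a b
    have h1 : ‖φ ((M a b : 𝓞 N) : N)‖ =
        ∏ k, (∏ j, ‖φ (y j k : N)‖ ^ (s a j : ℕ)) ^ (t b k : ℕ) := by
      simp only [M, Matrix.of_apply, map_prod, map_pow, norm_prod, norm_pow]
    rw [h1]
    have h2 : (1 : ℝ) ≤ 2 ^ h := one_le_pow₀ one_le_two
    calc ∏ k, (∏ j, ‖φ (y j k : N)‖ ^ (s a j : ℕ)) ^ (t b k : ℕ)
        ≤ ∏ _k : Fin d, (∏ _j : Fin l, ((2 : ℝ) ^ h) ^ (1 * S)) ^ T := by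
          apply prod_le_prod
          · intro k _; positivity
          · intro k _
            have h3 : ∏ j, ‖φ (y j k : N)‖ ^ (s a j : ℕ) ≤ ∏ _j : Fin l, ((2 : ℝ) ^ h) ^ (1 * S) := by
              apply prod_le_prod
              · intro j _; positivity
              · intro j _
                calc ‖φ (y j k : N)‖ ^ (s a j : ℕ) ≤ ((2 : ℝ) ^ h) ^ (s a j : ℕ) :=
                      pow_le_pow_left₀ (norm_nonneg _) (hh φ j k) _
                  _ ≤ ((2 : ℝ) ^ h) ^ (1 * S) := pow_le_pow_right₀ h2 (by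
                      have := (s a j).2; omega)
            have h4 : (1 : ℝ) ≤ ∏ _j : Fin l, ((2 : ℝ) ^ h) ^ (1 * S) := by
              rw [prod_const]
              exact one_le_pow₀ (one_le_pow₀ h2)
            calc (∏ j, ‖φ (y j k : N)‖ ^ (s a j : ℕ)) ^ (t b k : ℕ)
                ≤ (∏ _j : Fin l, ((2 : ℝ) ^ h) ^ (1 * S)) ^ (t b k : ℕ) :=
                  pow_le_pow_left₀ (by positivity) h3 _
              _ ≤ (∏ _j : Fin l, ((2 : ℝ) ^ h) ^ (1 * S)) ^ T :=
                  pow_le_pow_right₀ h4 (t b k).2.le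
      _ = ((2 : ℝ) ^ h) ^ (d * T * (l * (1 * S))) := by
          rw [prod_const, prod_const, card_univ, card_univ, Fintype.card_fin, Fintype.card_fin,
            ← pow_mul, ← pow_mul, ← pow_mul]
          congr 1
          ring
  · have h1 := numeric d l 1 h S hd hS2 hSe
    rw [← hL', ← hT, ← hE] at h1
    have h2 : (2 : ℕ) ^ (E * (L / 2)) ≤ p ^ (E * (L / 2)) := Nat.pow_le_pow_left hp _
    have h3 := lt_of_lt_of_le h1 h2
    exact_mod_cast h3

end Vale.Agent.P024.H74
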