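import Mathlib
import Vale.Agent.P024.H74.Core
import Vale.Agent.P024.H379.W.Indep
import Vale.Agent.P024.W.Gen

/-!
Block W: the closure of the group generated by many elements of prime-power norm is open.
-/

namespace Vale.Agent.P024.H74

open Finset NumberField

/-- A number field containing all conjugates. -/
theorem exists_embeddings (D : Type*) [Field D] [NumberField D] :
    ∃ (N : Type) (_ : Field N) (_ : NumberField N)
      (σ : Fin (Module.finrank ℚ D) → (D →+* N)), Function.Injective σ := by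
  classical
  let N := IntermediateField.normalClosure ℚ D ℂ
  have hfin : FiniteDimensional ℚ N := inferInstance
  have hN : NumberField N := @NumberField.mk N _ _ hfin
  have hle : ∀ f : D →ₐ[ℚ] ℂ, ∀ x, f x ∈ N := fun f x =>
    f.fieldRange_le_normalClosure ⟨x, rfl⟩
  let τ : (D →ₐ[ℚ] ℂ) → (D →+* N) := fun f => (f : D →+* ℂ).codRestrict N (hle f)
  have hτ : Function.Injective τ := by
    intro f g hfg
    ext x
    have := congrArg (fun φ : D →+* N => ((φ x : N) : ℂ)) hfg
    exact this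
  have hcard : Fintype.card (D →ₐ[ℚ] ℂ) = Module.finrank ℚ D := AlgHom.card ℚ D ℂ
  let e : Fin (Module.finrank ℚ D) ≃ (D →ₐ[ℚ] ℂ) := (Fintype.equivFinOfCardEq hcard).symm
  exact ⟨N, inferInstance, hN, fun k => τ (e k), hτ.comp e.injective⟩

/-- A generator of a power of a prime of norm `q ≠ p` is coprime to `p`. -/
theorem isCoprime_of_absNorm {D : Type*} [Field D] [NumberField D] {q p : ℕ} (hq : q.Prime)
    (hp : p.Prime) (hqp : q ≠ p) {v : Ideal (𝓞 D)} (hv : Ideal.absNorm v = q) {h : ℕ} {x : 𝓞 D}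
    (hx : Ideal.span {x} = v ^ h) : IsCoprime x (p : 𝓞 D) := by
  have h1 : (q : 𝓞 D) ∈ v := by
    have := Ideal.absNorm_mem v
    rwa [hv] at this
  have h2 : x ∣ (q : 𝓞 D) ^ h := by
    rw [← Ideal.mem_span_singleton, hx]
    exact Ideal.pow_mem_pow h1 h
  have h3 : IsCoprime ((q : ℤ) ^ h) (p : ℤ) := by
    apply IsCoprime.pow_left
    rw [Nat.isCoprime_iff_coprime]
    exact (Nat.coprime_primes hq hp).2 hqp
  have h4 : IsCoprime ((q : 𝓞 D) ^ h) (p : 𝓞 D) := by
    have := h3.map (Int.castRingHom (𝓞 D))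
    simpa using this
  exact h4.of_isCoprime_of_dvd_left h2

/-- A power of finitely many elements coprime to `p` is congruent to `1`. -/
theorem exists_pow_sub_one {D : Type*} [Field D] [NumberField D] {p : ℕ} (hp : p.Prime) {l : ℕ}
    (x : Fin l → 𝓞 D) (hx : ∀ j, IsCoprime (x j) (p : 𝓞 D)) :
    ∃ m : ℕ, 0 < m ∧ ∀ j, (p : 𝓞 D) ∣ x j ^ m - 1 := by
  classical
  have h0 : (p : 𝓞 D) ≠ 0 := by exact_mod_cast hp.ne_zero
  have hfin : Finite (𝓞 D ⧸ Ideal.span {(p : 𝓞 D)}) :=
    Ideal.finiteQuotientOfFreeOfNeBot _ (by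
      rw [Ne, Ideal.span_singleton_eq_bot]
      exact h0)
  have hfinu : Finite (𝓞 D ⧸ Ideal.span {(p : 𝓞 D)})ˣ := inferInstance
  refine ⟨Nat.card (𝓞 D ⧸ Ideal.span {(p : 𝓞 D)})ˣ, Nat.card_pos, fun j => ?_⟩
  obtain ⟨a, b, hab⟩ := hx j
  have hu : IsUnit (Ideal.Quotient.mk (Ideal.span {(p : 𝓞 D)}) (x j)) := by
    apply IsUnit.of_mul_eq_one (Ideal.Quotient.mk (Ideal.span {(p : 𝓞 D)}) a)
    rw [← map_mul, ← map_one (Ideal.Quotient.mk (Ideal.span {(p : 𝓞 D)})), Ideal.Quotient.eq,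
      Ideal.mem_span_singleton]
    exact ⟨-b, by linear_combination hab⟩
  obtain ⟨u, hu⟩ := hu
  rw [← Ideal.mem_span_singleton, ← Ideal.Quotient.eq, map_pow, ← hu, map_one, ← Units.val_pow_eq_pow_val,
    pow_card_eq_one', Units.val_one]

/-- **Block W.**  For every number field `D` there are `l` and a finite set `B` of primes such
that for elements `x_1, …, x_l` generating powers of primes of `D` of different prime norms outside
`B ∪ {p}` the closure of the group generated by the `x_j` is open `p`-adically. -/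
theorem w_main (D : Type*) [Field D] [NumberField D] :
    ∃ (l : ℕ) (B : Finset ℕ), ∀ q : Fin l → ℕ, (∀ j, (q j).Prime) → (∀ j, q j ∉ B) →
      Function.Injective q → ∀ v : Fin l → Ideal (𝓞 D), (∀ j, Ideal.absNorm (v j) = q j) →
      ∀ h : Fin l → ℕ, (∀ j, 0 < h j) → ∀ x : Fin l → 𝓞 D,
      (∀ j, Ideal.span {x j} = v j ^ h j) → ∀ (p : ℕ) [Fact p.Prime], p ≠ 2 →
      (∀ j, q j ≠ p) → ∃ K, ∀ k, ∀ z : 𝓞 D, (p : 𝓞 D) ^ K ∣ z - 1 →
        ∃ n : Fin l → ℕ, (p : 𝓞 D) ^ k ∣ z - ∏ j, x j ^ n j := by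
  classical
  obtain ⟨N, _, _, σ, hσ⟩ := exists_embeddings D
  obtain ⟨B, hB⟩ := Vale.Agent.P024.H379.W.indep σ hσ
  obtain ⟨l, hl⟩ := W.cond_of_poly (Module.finrank ℚ D) (2 * Module.finrank ℚ D) 1
  refine ⟨l, B, fun q hq hqB hqi v hv h hh x hx p hp hp2 hqp => ?_⟩
  obtain ⟨m, hm, hm1⟩ := exists_pow_sub_one hp.out x
    (fun j => isCoprime_of_absNorm (hq j) hp.out (hqp j) (hv j) (hx j))
  have hx' : ∀ j, Ideal.span {x j ^ m} = v j ^ (h j * m) := by
    intro j
    rw [← Ideal.span_singleton_pow, hx j, ← pow_mul]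
  have hx0 : ∀ j, x j ≠ 0 := by
    intro j h0
    have h1 := congrArg Ideal.absNorm (hx j)
    rw [h0, map_pow, hv j, Ideal.absNorm_span_singleton, Algebra.norm_zero, Int.natAbs_zero] at h1
    exact pow_ne_zero _ (hq j).ne_zero h1.symm
  rcases W.H95.gen D p hp2 (fun j => x j ^ m) hm1 with hgen | hgen
  · obtain ⟨K, hK⟩ := hgen
    refine ⟨K, fun k z hz => ?_⟩
    obtain ⟨n, hn⟩ := hK k z hz
    refine ⟨fun j => m * n j, ?_⟩
    simpa only [pow_mul] using hn
  · exfalso
    obtain ⟨S₀, hS₀⟩ := hl l le_rfl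
    have hpos : 0 < Module.finrank ℚ D := Module.finrank_pos
    refine core (N := N) (d := Module.finrank ℚ D) (r := Module.finrank ℚ D - 1) (by omega)
      (fun j k => RingOfIntegers.mapRingHom (σ k) (x j ^ m)) ?_ ?_
      ⟨S₀, fun S hS => hS₀ S hS _ (by rw [one_mul])⟩ p hp.out.two_le ?_
    · intro j k h0
      have h1 : ((RingOfIntegers.mapRingHom (σ k) (x j ^ m) : 𝓞 N) : N) = 0 := by rw [h0]; rfl
      rw [RingOfIntegers.mapRingHom_apply, map_eq_zero] at h1
      have h2 : x j ^ m = 0 := by exact_mod_cast h1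
      exact hx0 j (pow_eq_zero_iff hm.ne' |>.1 h2)
    · intro a s ha hs
      by_contra hs0
      refine hB q hq hqB hqi v hv (fun j => h j * m) (fun j => Nat.mul_pos (hh j) hm)
        (fun j => x j ^ m) hx' a s ha hs0 ?_
      rw [prod_comm]
      exact hs
    · intro A
      obtain ⟨u, hu, z, hz⟩ := hgen A
      refine ⟨fun i k => RingOfIntegers.mapRingHom (σ k) (u i), ?_, z, ?_⟩
      · intro i k
        have := map_dvd (RingOfIntegers.mapRingHom (σ k)) (hu i)
        simpa using this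
      · intro j k
        have := map_dvd (RingOfIntegers.mapRingHom (σ k)) (hz j)
        simpa using this

end Vale.Agent.P024.H74
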