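import Mathlib

/-!
Extension of a homomorphism with open image to the largest domain.
-/

namespace Vale.Agent.P024.H74

set_option linter.unusedSectionVars false
set_option linter.unusedVariables false

variable {Γ S : Type*} [Group Γ] [TopologicalSpace Γ] [IsTopologicalGroup Γ] [Group S]
  [TopologicalSpace S] [IsTopologicalGroup S]

/-- `a (g x g⁻¹) = b a(x) b⁻¹` on an open subgroup. -/
def Conj (G : Subgroup Γ) (a : G →* S) (g : Γ) (b : S) : Prop :=
  ∃ W : Subgroup Γ, IsOpen (W : Set Γ) ∧ ∀ x ∈ W, ∃ (h1 : x ∈ G) (h2 : g * x * g⁻¹ ∈ G),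
    a ⟨g * x * g⁻¹, h2⟩ = b * a ⟨x, h1⟩ * b⁻¹

variable {G : Subgroup Γ} {a : G →* S}

theorem conj_mul {g g' : Γ} {b b' : S} (h : Conj G a g b) (h' : Conj G a g' b') :
    Conj G a (g * g') (b * b') := by
  obtain ⟨W, hW, h1⟩ := h
  obtain ⟨W', hW', h1'⟩ := h'
  refine ⟨W' ⊓ W.comap (MulAut.conj g').toMonoidHom, ?_, ?_⟩
  · rw [Subgroup.coe_inf]
    apply IsOpen.inter hW'
    apply hW.preimage
    change Continuous fun x => g' * x * g'⁻¹
    fun_prop
  · intro x hx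
    obtain ⟨hx1, hx2⟩ := Subgroup.mem_inf.1 hx
    obtain ⟨p1, p2, p3⟩ := h1' x hx1
    rw [Subgroup.mem_comap] at hx2
    have hx3 : g' * x * g'⁻¹ ∈ W := by simpa using hx2
    obtain ⟨q1, q2, q3⟩ := h1 _ hx3
    have e : g * g' * x * (g * g')⁻¹ = g * (g' * x * g'⁻¹) * g⁻¹ := by group
    refine ⟨p1, by rw [e]; exact q2, ?_⟩
    have : a ⟨g * g' * x * (g * g')⁻¹, by rw [e]; exact q2⟩ =
        a ⟨g * (g' * x * g'⁻¹) * g⁻¹, q2⟩ := by
      congr 1
      exact Subtype.ext e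
    rw [this, q3, p3]
    group

theorem conj_inv {g : Γ} {b : S} (h : Conj G a g b) : Conj G a g⁻¹ b⁻¹ := by
  obtain ⟨W, hW, h1⟩ := h
  refine ⟨W.comap (MulAut.conj g⁻¹).toMonoidHom, ?_, ?_⟩
  · apply hW.preimage
    change Continuous fun x => g⁻¹ * x * (g⁻¹)⁻¹
    fun_prop
  · intro x hx
    rw [Subgroup.mem_comap] at hx
    have hx3 : g⁻¹ * x * g⁻¹⁻¹ ∈ W := by simpa using hx
    obtain ⟨q1, q2, q3⟩ := h1 _ hx3
    have e : g * (g⁻¹ * x * g⁻¹⁻¹) * g⁻¹ = x := by group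
    have hxG : x ∈ G := by rw [e] at q2; exact q2
    refine ⟨hxG, q1, ?_⟩
    have : a ⟨g * (g⁻¹ * x * g⁻¹⁻¹) * g⁻¹, q2⟩ = a ⟨x, hxG⟩ := by
      congr 1
      exact Subtype.ext e
    rw [this] at q3
    rw [q3]
    group

theorem conj_self (hG : IsOpen (G : Set Γ)) (g : G) : Conj G a (g : Γ) (a g) := by
  refine ⟨G, hG, fun x hx => ⟨hx, G.mul_mem (G.mul_mem g.2 hx) (G.inv_mem g.2), ?_⟩⟩
  rw [← map_inv, ← map_mul, ← map_mul]
  congr 1

/-- The conjugating element is unique. -/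
theorem conj_unique (hG : IsOpen (G : Set Γ)) (ha : Continuous a)
    (hopen : ∀ W : Subgroup Γ, IsOpen (W : Set Γ) → W ≤ G →
      ∀ b : S, (∀ x (hx : x ∈ G), x ∈ W → b * a ⟨x, hx⟩ = a ⟨x, hx⟩ * b) → b = 1)
    {g : Γ} {b b' : S} (h : Conj G a g b) (h' : Conj G a g b') : b = b' := by
  obtain ⟨W, hW, h1⟩ := h
  obtain ⟨W', hW', h1'⟩ := h'
  have h2 : b'⁻¹ * b = 1 := by
    apply hopen (W ⊓ W') (by rw [Subgroup.coe_inf]; exact hW.inter hW')
      (fun x hx => (h1 x (Subgroup.mem_inf.1 hx).1).1)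
    intro x hx hxW
    obtain ⟨hxW, hxW'⟩ := Subgroup.mem_inf.1 hxW
    obtain ⟨p1, p2, p3⟩ := h1 x hxW
    obtain ⟨q1, q2, q3⟩ := h1' x hxW'
    have h3 : b * a ⟨x, p1⟩ * b⁻¹ = b' * a ⟨x, p1⟩ * b'⁻¹ := by rw [← p3, ← q3]
    have h4 : b'⁻¹ * (b * a ⟨x, p1⟩ * b⁻¹) * b = b'⁻¹ * (b' * a ⟨x, p1⟩ * b'⁻¹) * b := by rw [h3]
    calc b'⁻¹ * b * a ⟨x, hx⟩ = b'⁻¹ * (b * a ⟨x, p1⟩ * b⁻¹) * b := by group
      _ = b'⁻¹ * (b' * a ⟨x, p1⟩ * b'⁻¹) * b := h4
      _ = a ⟨x, hx⟩ * (b'⁻¹ * b) := by group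
  exact (inv_mul_eq_one.1 h2).symm

theorem ext (G : Subgroup Γ) (hG : IsOpen (G : Set Γ)) (a : G →* S) (ha : Continuous a)
    (hcentG : ∀ W : Subgroup Γ, IsOpen (W : Set Γ) → W ≤ G →
      ∀ b : S, (∀ x (hx : x ∈ G), x ∈ W → b * a ⟨x, hx⟩ = a ⟨x, hx⟩ * b) → b = 1) :
    ∃ (U : Subgroup Γ) (hGU : G ≤ U) (a0 : U →* S), Continuous a0 ∧
      (∀ x : G, a0 ⟨x, hGU x.2⟩ = a x) ∧ (∀ g : Γ, g ∈ U ↔ ∃ b : S, Conj G a g b) ∧
      (∀ g : U, Conj G a (g : Γ) (a0 g)) := by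
  classical
  let U : Subgroup Γ :=
    { carrier := {g | ∃ b, Conj G a g b}
      one_mem' := ⟨_, by simpa using conj_self (a := a) hG 1⟩
      mul_mem' := by
        rintro g g' ⟨b, hb⟩ ⟨b', hb'⟩
        exact ⟨_, conj_mul hb hb'⟩
      inv_mem' := by
        rintro g ⟨b, hb⟩
        exact ⟨_, conj_inv hb⟩ }
  have hGU : G ≤ U := fun g hg => ⟨_, conj_self (a := a) hG ⟨g, hg⟩⟩
  have hU : ∀ g : U, ∃ b, Conj G a (g : Γ) b := fun g => g.2
  choose f hf using hU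
  let a0 : U →* S :=
    { toFun := f
      map_one' := by
        apply conj_unique hG ha hcentG (hf 1)
        simpa using conj_self (a := a) hG 1
      map_mul' := fun g g' => conj_unique hG ha hcentG (hf (g * g')) (conj_mul (hf g) (hf g')) }
  have ha0 : ∀ x : G, a0 ⟨x, hGU x.2⟩ = a x := fun x =>
    conj_unique hG ha hcentG (hf ⟨x, hGU x.2⟩) (conj_self hG x)
  refine ⟨U, hGU, a0, ?_, ha0, fun g => Iff.rfl, hf⟩
  apply continuous_of_continuousAt_one
  have hUo : IsOpen (U : Set Γ) := Subgroup.isOpen_mono hGU hG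
  have hemb : Topology.IsOpenEmbedding (Subgroup.inclusion hGU) := by
    apply Topology.IsOpenEmbedding.of_comp (Subgroup.inclusion hGU) hUo.isOpenEmbedding_subtypeVal
    exact hG.isOpenEmbedding_subtypeVal
  have h1 : ContinuousAt (a0 ∘ Subgroup.inclusion hGU) 1 := by
    have h2 : a0 ∘ Subgroup.inclusion hGU = a := funext fun x => ha0 x
    rw [h2]
    exact ha.continuousAt
  rw [hemb.continuousAt_iff] at h1
  simpa using h1

/-- The image of an open subgroup is open. -/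
theorem image_open [CompactSpace Γ] [T2Space S] (hG : IsOpen (G : Set Γ)) (ha : Continuous a)
    (hopen : IsOpen (Set.range a)) (W : Subgroup Γ) (hW : IsOpen (W : Set Γ)) :
    IsOpen (((W.subgroupOf G).map a : Subgroup S) : Set S) := by
  have hGc : CompactSpace G := isCompact_iff_compactSpace.1 (Subgroup.isClosed_of_isOpen G hG).isCompact
  have hWG : IsOpen ((W.subgroupOf G : Subgroup G) : Set G) := hW.preimage continuous_subtype_val
  have hWc : IsCompact ((W.subgroupOf G : Subgroup G) : Set G) :=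
    (Subgroup.isClosed_of_isOpen _ hWG).isCompact
  have hfinq : Finite (G ⧸ W.subgroupOf G) := Subgroup.quotient_finite_of_isOpen _ hWG
  have hfin : (W.subgroupOf G).FiniteIndex := Subgroup.finiteIndex_of_finite_quotient
  have hcl : IsClosed (((W.subgroupOf G).map a : Subgroup S) : Set S) := by
    rw [Subgroup.coe_map]
    exact (hWc.image ha).isClosed
  have hR : IsOpen ((a.range : Subgroup S) : Set S) := by
    rw [MonoidHom.coe_range]; exact hopen
  have hcl2 : IsClosed ((((W.subgroupOf G).map a).subgroupOf a.range : Subgroup a.range) :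
      Set a.range) := hcl.preimage continuous_subtype_val
  have hfin2 : (((W.subgroupOf G).map a).subgroupOf a.range).FiniteIndex := by
    constructor
    have h1 := Subgroup.relIndex_map_map a (W.subgroupOf G) ⊤
    rw [← MonoidHom.range_eq_map, top_sup_eq, Subgroup.relIndex_top_right] at h1
    change ((W.subgroupOf G).map a).relIndex a.range ≠ 0
    rw [h1]
    have : (W.subgroupOf G ⊔ a.ker).FiniteIndex := Subgroup.finiteIndex_of_le le_sup_left
    exact this.index_ne_zero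
  have hop := Subgroup.isOpen_of_isClosed_of_finiteIndex _ hcl2
  have h3 := hR.isOpenMap_subtype_val _ hop
  have h4 : (((W.subgroupOf G).map a : Subgroup S) : Set S) = Subtype.val ''
      ((((W.subgroupOf G).map a).subgroupOf a.range : Subgroup a.range) : Set a.range) := by
    ext y
    simp only [Set.mem_image, SetLike.mem_coe]
    constructor
    · intro hy
      obtain ⟨x, hx, rfl⟩ := Subgroup.mem_map.1 hy
      exact ⟨⟨a x, ⟨x, rfl⟩⟩, hy, rfl⟩
    · rintro ⟨x, hx, rfl⟩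
      exact hx
  rw [h4]
  exact h3

/-- **[EXT]** The largest domain of a homomorphism with open image. -/
theorem ext_compact [CompactSpace Γ] [T2Space S] (G : Subgroup Γ) (hG : IsOpen (G : Set Γ))
    (a : G →* S) (ha : Continuous a) (hopen : IsOpen (Set.range a))
    (hcent : ∀ V : Subgroup S, IsOpen (V : Set S) → ∀ b, (∀ x ∈ V, b * x = x * b) → b = 1) :
    ∃ (U : Subgroup Γ) (hGU : G ≤ U) (a0 : U →* S), Continuous a0 ∧
      (∀ x : G, a0 ⟨x, hGU x.2⟩ = a x) ∧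
      (∀ g : Γ, g ∈ U ↔ ∃ (b : S) (W : Subgroup Γ), IsOpen (W : Set Γ) ∧
        ∀ x ∈ W, ∃ (h1 : x ∈ G) (h2 : g * x * g⁻¹ ∈ G),
          a ⟨g * x * g⁻¹, h2⟩ = b * a ⟨x, h1⟩ * b⁻¹) ∧
      (∀ g : U, ∃ W : Subgroup Γ, IsOpen (W : Set Γ) ∧
        ∀ x ∈ W, ∃ (h1 : x ∈ G) (h2 : g * x * (g : Γ)⁻¹ ∈ G),
          a ⟨g * x * (g : Γ)⁻¹, h2⟩ = a0 g * a ⟨x, h1⟩ * (a0 g)⁻¹) := by
  obtain ⟨U, hGU, a0, h1, h2, h3, h4⟩ := ext G hG a ha (by
    intro W hW hWG b hb
    apply hcent _ (image_open hG ha hopen W hW) b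
    intro y hy
    obtain ⟨x, hx, rfl⟩ := Subgroup.mem_map.1 hy
    exact hb x.1 x.2 (Subgroup.mem_subgroupOf.1 hx))
  exact ⟨U, hGU, a0, h1, h2, h3, h4⟩

end Vale.Agent.P024.H74
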