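import Mathlib

/-!
The final arithmetic contradiction.
-/

namespace Vale.Agent.P024.H74

/-- If `r₂` is a primitive root modulo `p` and modulo `q`, `k ≥ 2` divides `p - 1` and `q - 1` and
`r ^ k = r₂ ^ m` modulo `p`, then `r₂` is not a power of `r₂ ^ m` modulo `q`. -/
theorem fin_step {p q : ℕ} [hp : Fact p.Prime] [hq : Fact q.Prime] {k m : ℕ} (hk : 2 ≤ k)
    (hkp : k ∣ p - 1) (hkq : k ∣ q - 1) (r r₂ : ℕ) (h2p : orderOf (r₂ : ZMod p) = p - 1)
    (h2q : orderOf (r₂ : ZMod q) = q - 1) (hr : (r : ZMod p) ≠ 0)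
    (hrm : (r : ZMod p) ^ k = (r₂ : ZMod p) ^ m) (j : ℕ) :
    ((r₂ : ZMod q) ^ m) ^ j ≠ (r₂ : ZMod q) := by
  have hp1 : 0 < p - 1 := by have := hp.out.two_le; omega
  have hq1 : 0 < q - 1 := by have := hq.out.two_le; omega
  have h2p0 : (r₂ : ZMod p) ≠ 0 := by
    intro h0
    rw [h0] at h2p
    have h1 := pow_orderOf_eq_one (0 : ZMod p)
    rw [h2p, zero_pow hp1.ne'] at h1
    exact zero_ne_one h1
  have h2q0 : (r₂ : ZMod q) ≠ 0 := by
    intro h0
    rw [h0] at h2q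
    have h1 := pow_orderOf_eq_one (0 : ZMod q)
    rw [h2q, zero_pow hq1.ne'] at h1
    exact zero_ne_one h1
  -- units
  let g : (ZMod p)ˣ := Units.mk0 _ h2p0
  have hg : orderOf g = p - 1 := by rw [← orderOf_units, Units.val_mk0, h2p]
  let g' : (ZMod q)ˣ := Units.mk0 _ h2q0
  have hg' : orderOf g' = q - 1 := by rw [← orderOf_units, Units.val_mk0, h2q]
  have hmem : Units.mk0 _ hr ∈ Subgroup.zpowers g := by
    have h1 : Subgroup.zpowers g = ⊤ := by
      rw [← Subgroup.card_eq_iff_eq_top, Nat.card_zpowers, hg, Nat.card_eq_fintype_card,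
        ZMod.card_units]
    rw [h1]; exact Subgroup.mem_top _
  rw [mem_zpowers_iff_mem_range_orderOf] at hmem
  obtain ⟨s, -, hs⟩ := Finset.mem_image.1 hmem
  have h3 : g ^ (s * k) = g ^ m := by
    rw [pow_mul, hs]
    ext
    rw [Units.val_pow_eq_pow_val, Units.val_pow_eq_pow_val, Units.val_mk0, Units.val_mk0]
    exact hrm
  rw [pow_eq_pow_iff_modEq, hg] at h3
  have hkm : k ∣ m := by
    have h4 := h3.of_dvd hkp
    exact ((h4.dvd_iff dvd_rfl).1 (Dvd.intro_left s rfl))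
  intro hj
  have h5 : g' ^ (m * j) = g' ^ 1 := by
    rw [pow_mul, pow_one]
    ext
    rw [Units.val_pow_eq_pow_val, Units.val_pow_eq_pow_val, Units.val_mk0]
    exact hj
  rw [pow_eq_pow_iff_modEq, hg'] at h5
  have h6 := h5.of_dvd hkq
  have h7 : k ∣ 1 := (h6.dvd_iff dvd_rfl).1 (hkm.mul_right j)
  rw [Nat.dvd_one] at h7
  omega

end Vale.Agent.P024.H74
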