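import Mathlib

/-!
A zero estimate for polynomials on a finitely generated multiplicative group, by resultants.
-/

namespace Vale.Agent.P024.H74

open Polynomial

section Res

variable {R : Type*} [CommRing R] [IsDomain R] [UniqueFactorizationMonoid R]

/-- Over a factorial ring the resultant of two relatively prime polynomials is not zero. -/
theorem res_ne_zero {f g : R[X]} (hf : f ≠ 0) (h : IsRelPrime f g) : resultant f g ≠ 0 := by
  classical
  let : NormalizedGCDMonoid R := Nonempty.some inferInstance
  intro h0
  have hinj : Function.Injective (algebraMap R (FractionRing R)) :=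
    IsFractionRing.injective R (FractionRing R)
  set f' := f.map (algebraMap R (FractionRing R)) with hf'
  set g' := g.map (algebraMap R (FractionRing R)) with hg'
  have hf0 : f' ≠ 0 := by
    rw [hf', Ne, Polynomial.map_eq_zero_iff hinj]; exact hf
  have h1 : resultant f' g' = 0 := by
    have := resultant_map_map f g f.natDegree g.natDegree (algebraMap R (FractionRing R))
    rw [h0, map_zero] at this
    rwa [hf', hg', natDegree_map_eq_of_injective hinj, natDegree_map_eq_of_injective hinj]
  rw [resultant_eq_zero_iff] at h1
  have h2 : ¬ IsRelPrime f' g' := fun hr => h1.2 hr.isCoprime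
  unfold IsRelPrime at h2
  push Not at h2
  obtain ⟨d, hd1, hd2, hd3⟩ := h2
  have hd0 : d ≠ 0 := fun hh => by
    rw [hh, zero_dvd_iff] at hd1; exact hf0 hd1
  set e := (IsLocalization.integerNormalization (nonZeroDivisors R) d) with he
  obtain ⟨b, hb, hb2⟩ := IsLocalization.integerNormalization_spec (nonZeroDivisors R) d
  have hb0 : b ≠ 0 := nonZeroDivisors.ne_zero hb
  have hed : e.primPart.map (algebraMap R (FractionRing R)) ∣ d := by
    have h3 : e.primPart.map (algebraMap R (FractionRing R)) ∣ b • d := by
      rw [← hb2, ← he]
      conv_rhs => rw [e.eq_C_content_mul_primPart, Polynomial.map_mul]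
      exact dvd_mul_left _ _
    have h4 : b • d = C (algebraMap R (FractionRing R) b) * d := by
      rw [Algebra.smul_def]; rfl
    rw [h4] at h3
    have hu : IsUnit (C (algebraMap R (FractionRing R) b)) := by
      rw [isUnit_C, isUnit_iff_ne_zero]
      intro hh; exact hb0 (hinj (by rw [hh, map_zero]))
    exact (hu.dvd_mul_left).1 h3
  have hp : e.primPart.IsPrimitive := isPrimitive_primPart e
  have h5 : e.primPart ∣ f := hp.dvd_of_fraction_map_dvd_fraction_map (hed.trans hd1)
  have h6 : e.primPart ∣ g := hp.dvd_of_fraction_map_dvd_fraction_map (hed.trans hd2)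
  exact hd3 (isUnit_or_eq_zero_of_isUnit_integerNormalization_primPart hd0 (h h5 h6))

end Res

end Vale.Agent.P024.H74
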